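import Vale.Agent.P133O37.Red
import Vale.Agent.P133OF.Defs

/-! The row RED of P133O. -/

namespace Vale.Agent.P133O37

universe u

theorem red_holds : Vale.Agent.P133OF.RED.{u} := by
  intro C _ _ _ ι _ W h0 hadd hsmul hconj q hF ε hε
  refine red W h0 hadd hsmul hconj q (fun H _ _ _ π hf ζ _ hv => hF H π hf ζ fun w hw => ?_) ε hε
  exact hv 1 (one_mem _) w hw

end Vale.Agent.P133O37
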